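import Vale.Agent.P366.CG.R
import Vale.Agent.P366.H707.G.Field

/-! The metric part of the flux field for `δ + F df ⊗ df`, in the notation of `FG`. -/

open MeasureTheory Metric Filter Topology Set
open scoped ContDiff ENNReal

noncomputable section
namespace Vale.Agent.P366.FG

open Vale.Agent.P366 (E)
open Vale.Agent.P366.H353.N (kd hs)
open Vale.Agent.P366.KSN.X5 (cdd)
open Vale.Agent.P366.CL (spd_eq)

variable {n : ℕ} {f F : E n → ℝ} {D : Stmt.Exterior n} {x : E n}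

lemma spd_f (hf : Stmt.Smooth f) (i : Fin n) (z : E n) :
    Stmt.pd i f z = Vale.Agent.P366.pd i f z := spd_eq hf.contDiffAt i

lemma spd2_f (hf : Stmt.Smooth f) (i j : Fin n) (z : E n) :
    Stmt.pd i (Stmt.pd j f) z = hs f i j z := KSN.spd2_eq hf.contDiffAt i j

lemma gsq_eq (hf : Stmt.Smooth f) (z : E n) : ∑ i, Stmt.pd i f z ^ 2 = CG.gsq f z :=
  Finset.sum_congr rfl fun i _ => by rw [spd_f hf, sq]

lemma wsq_eq (hf : Stmt.Smooth f) (z : E n) : wsq f F z = CG.dt f F z := by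
  unfold wsq CG.dt
  rw [gsq_eq hf]

lemma X0_eq (hf : Stmt.Smooth f) (i : Fin n) : X0 D.g f F i = CG.X0 f F D i := by
  funext z
  unfold X0 CG.X0 H474.L.Ef
  rw [wsq_eq hf]

lemma hf_eq (hf : Stmt.Smooth f) (i : Fin n) (z : E n) : FG.hf f i z = CG.sv f i z :=
  Finset.sum_congr rfl fun j _ => by rw [spd2_f hf, spd_f hf]

lemma bv_eq (hf : Stmt.Smooth f) (hF : Stmt.Smooth F) (i : Fin n) (z : E n) :
    bv f F i z = CG.bv f F i z := by
  unfold bv CG.bv
  rw [gsq_eq hf, spd_f hF, spd_f hf]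
  have : ∑ j, Stmt.pd j f z * Stmt.pd j F z = ∑ l, Vale.Agent.P366.pd l F z *
      Vale.Agent.P366.pd l f z :=
    Finset.sum_congr rfl fun j _ => by rw [spd_f hf, spd_f hF, mul_comm]
  rw [this]

lemma pg_lvl (hf : Stmt.Smooth f) (hF : Stmt.Smooth F)
    (hg : ∀ x, 0 ≤ D.F x → ∀ i j, D.g x i j = lvlMetric f F x i j) (hx : 0 < D.F x) :
    CG.Pg f F D x :=
  CG.pg_of (fun _ _ => hf.contDiffAt) (fun _ _ => hF.contDiffAt) (fun z hz i j => by
    rw [hg z hz]
    unfold lvlMetric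
    rw [spd_f hf, spd_f hf]
    rfl) hx

/-- **[G1]** with the line derivative. -/
theorem div_X0S (hf : Stmt.Smooth f) (hF : Stmt.Smooth F)
    (hg : ∀ x, 0 ≤ D.F x → ∀ i j, D.g x i j = lvlMetric f F x i j) (hx : 0 < D.F x) :
    ∑ i, Stmt.pd i (X0 D.g f F i) x = Stmt.scal D.g x / 2 +
      (∑ i, bv f F i x * (bv f F i x + F x * FG.hf f i x)) / wsq f F x ^ 2 := by
  simp only [X0_eq hf]
  rw [CG.div_X0 (fun z hz => pg_lvl hf hF hg hz) hx, wsq_eq hf]
  simp only [bv_eq hf hF, hf_eq hf]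

/-- the metric part of the flux field is smooth -/
theorem X0_cd (hf : Stmt.Smooth f) (hF : Stmt.Smooth F)
    (hg : ∀ x, 0 ≤ D.F x → ∀ i j, D.g x i j = lvlMetric f F x i j) (hx : 0 ≤ D.F x)
    (i : Fin n) : ContDiffAt ℝ ∞ (X0 D.g f F i) x := by
  rw [X0_eq hf]
  refine CG.X0_cd hf.contDiffAt hF.contDiffAt ?_ i
  have := CG.sum_sq_pos (a := fun i => Vale.Agent.P366.pd i f x) (c := F x) (D.pos x hx)
    (fun i j => by
      rw [hg x hx]
      unfold lvlMetric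
      rw [spd_f hf, spd_f hf]
      rfl)
  exact this.ne'

/-- **[G1]**, literal form. -/
theorem div_X0 (hf : Stmt.Smooth f) (hF : Stmt.Smooth F)
    (hg : ∀ x, 0 ≤ D.F x → ∀ i j, D.g x i j = lvlMetric f F x i j) (hx : 0 < D.F x) :
    ∑ i, Vale.Agent.P366.pd i (X0 D.g f F i) x = Stmt.scal D.g x / 2 +
      (∑ i, bv f F i x * (bv f F i x + F x * FG.hf f i x)) / wsq f F x ^ 2 := by
  rw [← div_X0S hf hF hg hx]
  exact Finset.sum_congr rfl fun i _ => (spd_eq (X0_cd hf hF hg hx.le i) i).symm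

end Vale.Agent.P366.FG
end
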