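import Vale.Agent.P366.CG.RAlg
import Vale.Agent.P366.CF.R

/-! The scalar curvature of the metric `δ + F df ⊗ df`, critical points of `f` allowed. -/

open MeasureTheory Metric Filter Topology Set
open scoped ContDiff ENNReal

noncomputable section
namespace Vale.Agent.P366.CG

open Vale.Agent.P366 (pd E)
open Vale.Agent.P366.H353.N (kd hs lap)
open Vale.Agent.P366.KSN.X5 (DP cdd cd_pd cd_hs)
open Vale.Agent.P366.CL (spd_cd spd_eq)
open Vale.Agent.P366.H474.L (Ef)
open Vale.Agent.P366.T2 (Lg Vg scal_div)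
open Vale.Agent.P366.CF (ctr ctr1 dp_spd ev_pos)

variable {n : ℕ} {f F : E n → ℝ} {D : Stmt.Exterior n} {y z : E n}

/-- `|∂f|²` -/
def gsq (f : E n → ℝ) (z : E n) : ℝ := ∑ i, pd i f z * pd i f z

/-- `det g = 1 + F |∂f|²` -/
def dt (f F : E n → ℝ) (z : E n) : ℝ := 1 + F z * gsq f z

/-- `D²f ∂f` -/
def sv (f : E n → ℝ) (i : Fin n) (z : E n) : ℝ := ∑ j, hs f i j z * pd j f z

/-- the derivative of `det g` -/
def dd (f F : E n → ℝ) (k : Fin n) (z : E n) : ℝ := pd k F z * gsq f z + 2 * F z * sv f k z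

/-- the facts at interior points -/
structure Pg (f F : E n → ℝ) (D : Stmt.Exterior n) (y : E n) : Prop where
  hF : 0 ≤ D.F y
  cf : ContDiffAt ℝ ∞ f y
  cF : ContDiffAt ℝ ∞ F y
  pos : 0 < dt f F y
  g : ∀ i j, D.g y i j = kd i j + F y * pd i f y * pd j f y
  dg : ∀ k i j, Stmt.pd k (fun z => D.g z i j) y = pd k F y * pd i f y * pd j f y +
    F y * hs f k i y * pd j f y + F y * pd i f y * hs f k j y

lemma sum_sq_pos {g : Stmt.Field n} {x : Stmt.E n} {a : Fin n → ℝ} {c : ℝ}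
    (hP : (Stmt.mat g x).PosDef) (hg : ∀ i j, g x i j = kd i j + c * a i * a j) :
    0 < 1 + c * ∑ i, a i * a i := by
  rcases eq_or_ne a 0 with h0 | h0
  · simp [h0]
  have h1 := hP.dotProduct_mulVec_pos h0
  simp only [star_trivial] at h1
  have e : a ⬝ᵥ (Stmt.mat g x).mulVec a =
      (∑ i, a i * a i) * (1 + c * ∑ i, a i * a i) := by
    unfold dotProduct Matrix.mulVec dotProduct Stmt.mat
    simp only [hg]
    have e1 : ∀ i, a i * ∑ j, (kd i j + c * a i * a j) * a j =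
        a i * a i + c * (∑ j, a j * a j) * (a i * a i) := by
      intro i
      have e2 : ∀ j, (kd i j + c * a i * a j) * a j = kd i j * a j + c * a i * (a j * a j) :=
        fun j => by ring
      have e3 : ∑ j, kd i j * a j = a i := by simp [kd]
      simp only [e2, Finset.sum_add_distrib, ← Finset.mul_sum, e3]
      ring
    simp only [e1, Finset.sum_add_distrib, ← Finset.mul_sum]
    ring
  rw [e] at h1
  have h2 : 0 ≤ ∑ i, a i * a i := Finset.sum_nonneg fun i _ => mul_self_nonneg _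
  exact pos_of_mul_pos_right h1 h2

/-- the facts at an interior point from the metric -/
theorem pg_of (hf : ∀ z, 0 ≤ D.F z → ContDiffAt ℝ ∞ f z)
    (hF : ∀ z, 0 ≤ D.F z → ContDiffAt ℝ ∞ F z)
    (hg : ∀ z, 0 ≤ D.F z → ∀ i j, D.g z i j = kd i j + F z * pd i f z * pd j f z)
    (hy : 0 < D.F y) : Pg f F D y := by
  have hev : ∀ᶠ z in 𝓝 y, 0 ≤ D.F z := (ev_pos hy).mono fun z hz => le_of_lt hz
  have cf := hf y hy.le
  have cF := hF y hy.le
  refine ⟨hy.le, cf, cF, sum_sq_pos (D.pos y hy.le) (hg y hy.le), hg y hy.le, fun k i j => ?_⟩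
  rw [spd_eq (D.smooth i j).1.contDiffAt]
  have e1 : (fun z => D.g z i j) =ᶠ[𝓝 y] fun z => kd i j + F z * pd i f z * pd j f z :=
    hev.mono fun z hz => hg z hz i j
  rw [Vale.Agent.P366.pd_congr e1 k]
  have e2 : DP k (fun z => kd i j + F z * pd i f z * pd j f z)
      (0 + ((pd k F y * pd i f y + F y * hs f k i y) * pd j f y +
        F y * pd i f y * hs f k j y)) y :=
    (DP.const (kd i j)).add (((DP.of (cdd cF)).mul (DP.of (cdd (cd_pd cf i)))).mul
      (DP.of (cdd (cd_pd cf j))))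
  rw [e2.2]
  ring

namespace Pg

lemma up_z (P : Pg f F D z) (i j : Fin n) : Stmt.up D.g i j z =
    kd i j - F z / dt f F z * pd i f z * pd j f z :=
  up_gen (a := fun i => pd i f z) P.pos.ne' P.g i j

lemma dp_gsq (P : Pg f F D z) (k : Fin n) : DP k (gsq f) (2 * sv f k z) z := by
  have h1 : DP k (gsq f) (∑ i, (hs f k i z * pd i f z + pd i f z * hs f k i z)) z :=
    DP.sum _ fun i => (DP.of (cdd (cd_pd P.cf i))).mul (DP.of (cdd (cd_pd P.cf i)))
  have e : ∑ i, (hs f k i z * pd i f z + pd i f z * hs f k i z) = 2 * sv f k z := by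
    unfold sv
    rw [Finset.mul_sum]
    exact Finset.sum_congr rfl fun i _ => by ring
  rw [e] at h1
  exact h1

lemma dp_dt (P : Pg f F D z) (k : Fin n) : DP k (dt f F) (dd f F k z) z := by
  have h1 : DP k (dt f F) (0 + (pd k F z * gsq f z + F z * (2 * sv f k z))) z :=
    (DP.const 1).add ((DP.of (cdd P.cF)).mul (P.dp_gsq k))
  have e : 0 + (pd k F z * gsq f z + F z * (2 * sv f k z)) = dd f F k z := by
    unfold dd; ring
  rw [e] at h1
  exact h1

/-- the derivative of `F / det g` -/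
lemma dp_sig (P : Pg f F D z) (k : Fin n) : DP k (fun z => F z / dt f F z)
    ((1 / dt f F z) ^ 2 * (pd k F z - 2 * F z ^ 2 * sv f k z)) z := by
  have h0 := P.pos.ne'
  have h1 : HasDerivAt (fun t : ℝ => t⁻¹) (-(dt f F z ^ 2)⁻¹) (dt f F z) := hasDerivAt_inv h0
  have h2 := h1.comp_hasFDerivAt z (P.dp_dt k).1.hasFDerivAt
  have h3 : DP k (fun z => (dt f F z)⁻¹) (-(dt f F z ^ 2)⁻¹ * dd f F k z) z := by
    refine ⟨h2.differentiableAt, ?_⟩
    show fderiv ℝ ((fun t : ℝ => t⁻¹) ∘ dt f F) z (EuclideanSpace.single k 1) = _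
    rw [h2.fderiv]
    show -(dt f F z ^ 2)⁻¹ * fderiv ℝ (dt f F) z (EuclideanSpace.single k 1) = _
    rw [show fderiv ℝ (dt f F) z (EuclideanSpace.single k 1) = pd k (dt f F) z from rfl,
      (P.dp_dt k).2]
  have h4 := (DP.of (k := k) (cdd P.cF)).mul h3
  have e : pd k F z * (dt f F z)⁻¹ + F z * (-(dt f F z ^ 2)⁻¹ * dd f F k z) =
      (1 / dt f F z) ^ 2 * (pd k F z - 2 * F z ^ 2 * sv f k z) := by
    have e2 : dt f F z = 1 + F z * gsq f z := rfl
    unfold dd
    field_simp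
    rw [e2]
    ring
  rw [e] at h4
  exact h4

end Pg

/-- the part of the flux field given by the metric -/
def X0 (f F : E n → ℝ) (D : Stmt.Exterior n) (k : Fin n) (z : E n) : ℝ := Ef D k z / dt f F z

lemma gsq_cd (cf : ContDiffAt ℝ ∞ f y) : ContDiffAt ℝ ∞ (gsq f) y :=
  ContDiffAt.sum fun i _ => (cd_pd cf i).mul (cd_pd cf i)

lemma dt_cd (cf : ContDiffAt ℝ ∞ f y) (cF : ContDiffAt ℝ ∞ F y) : ContDiffAt ℝ ∞ (dt f F) y :=
  contDiffAt_const.add (cF.mul (gsq_cd cf))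

lemma sv_cd (cf : ContDiffAt ℝ ∞ f y) (i : Fin n) : ContDiffAt ℝ ∞ (sv f i) y :=
  ContDiffAt.sum fun j _ => (cd_hs cf i j).mul (cd_pd cf j)

lemma dd_cd (cf : ContDiffAt ℝ ∞ f y) (cF : ContDiffAt ℝ ∞ F y) (k : Fin n) :
    ContDiffAt ℝ ∞ (dd f F k) y :=
  ((cd_pd cF k).mul (gsq_cd cf)).add ((contDiffAt_const.mul cF).mul (sv_cd cf k))

lemma Ef_cd (D : Stmt.Exterior n) (k : Fin n) : ContDiffAt ℝ ∞ (Ef D k) y := by
  unfold H474.L.Ef
  exact (ContDiffAt.sum fun j _ => (spd_cd (D.smooth k j).1.contDiffAt j).sub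
    (spd_cd (D.smooth j j).1.contDiffAt k)).div_const 2

lemma X0_cd (cf : ContDiffAt ℝ ∞ f y) (cF : ContDiffAt ℝ ∞ F y) (h0 : dt f F y ≠ 0) (k : Fin n) :
    ContDiffAt ℝ ∞ (X0 f F D k) y := (Ef_cd D k).div (dt_cd cf cF) h0

variable (hP : ∀ z, 0 < D.F z → Pg f F D z)
include hP

lemma dup_z (hz : 0 < D.F z) (k i j : Fin n) : Stmt.pd k (Stmt.up D.g i j) z =
    -((1 / dt f F z) ^ 2 * (pd k F z - 2 * F z ^ 2 * sv f k z) * pd i f z * pd j f z +
      F z / dt f F z * (hs f k i z * pd j f z + pd i f z * hs f k j z)) := by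
  have P := hP z hz
  have h1 : DP k (fun z => kd i j - F z / dt f F z * pd i f z * pd j f z)
      (0 - (((1 / dt f F z) ^ 2 * (pd k F z - 2 * F z ^ 2 * sv f k z) * pd i f z +
        F z / dt f F z * hs f k i z) * pd j f z + F z / dt f F z * pd i f z * hs f k j z)) z :=
    (DP.const (kd i j)).sub (((P.dp_sig k).mul
      (DP.of (cdd (cd_pd P.cf i)))).mul (DP.of (cdd (cd_pd P.cf j))))
  have h2 : Stmt.up D.g i j =ᶠ[𝓝 z] fun z => kd i j - F z / dt f F z * pd i f z * pd j f z :=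
    (ev_pos hz).mono fun x hx => (hP x hx).up_z i j
  have h3 : DP k (Stmt.up D.g i j) _ z :=
    ⟨h1.1.congr_of_eventuallyEq h2, by rw [Vale.Agent.P366.pd_congr h2 k, h1.2]⟩
  rw [dp_spd h3]
  ring

omit hP in
lemma hs_sym (P : Pg f F D z) (i j : Fin n) : hs f i j z = hs f j i z :=
  KSN.X5.hs_symm' P.cf i j

lemma Lg_z (hz : 0 < D.F z) (i : Fin n) : Lg D.g i z = 1 / dt f F z / 2 * dd f F i z := by
  have P := hP z hz
  have h1 := P.pos.ne'
  unfold T2.Lg
  simp only [P.up_z, P.dg i]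
  rw [ctr (fun i => pd i f z) (F z / dt f F z) fun k l => pd i F z * pd k f z * pd l f z +
    F z * hs f i k z * pd l f z + F z * pd k f z * hs f i l z]
  have e1 : ∑ k, (pd i F z * pd k f z * pd k f z +
      F z * hs f i k z * pd k f z + F z * pd k f z * hs f i k z) = dd f F i z := by
    have : ∀ k, pd i F z * pd k f z * pd k f z +
      F z * hs f i k z * pd k f z + F z * pd k f z * hs f i k z =
      pd i F z * (pd k f z * pd k f z) + 2 * F z * (hs f i k z * pd k f z) :=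
      fun k => by ring
    simp only [this, Finset.sum_add_distrib, ← Finset.mul_sum]
    rfl
  have e2 : ∀ k, ∑ l, pd l f z * (pd i F z * pd k f z * pd l f z +
      F z * hs f i k z * pd l f z + F z * pd k f z * hs f i l z) =
      (pd i F z * gsq f z + F z * sv f i z) * pd k f z + F z * gsq f z * hs f i k z := by
    intro k
    have : ∀ l, pd l f z * (pd i F z * pd k f z * pd l f z +
      F z * hs f i k z * pd l f z + F z * pd k f z * hs f i l z) =
      (pd i F z * pd k f z + F z * hs f i k z) * (pd l f z * pd l f z) +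
      F z * pd k f z * (hs f i l z * pd l f z) := fun l => by ring
    simp only [this, Finset.sum_add_distrib, ← Finset.mul_sum]
    unfold gsq sv
    ring
  have e3 : ∑ k, pd k f z * ((pd i F z * gsq f z + F z * sv f i z) * pd k f z +
      F z * gsq f z * hs f i k z) = gsq f z * dd f F i z := by
    have : ∀ k, pd k f z * ((pd i F z * gsq f z + F z * sv f i z) * pd k f z +
      F z * gsq f z * hs f i k z) =
      (pd i F z * gsq f z + F z * sv f i z) * (pd k f z * pd k f z) +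
      F z * gsq f z * (hs f i k z * pd k f z) :=
      fun k => by ring
    simp only [this, Finset.sum_add_distrib, ← Finset.mul_sum]
    unfold dd gsq sv
    ring
  simp only [e1, e2, e3]
  have e4 : dt f F z = 1 + F z * gsq f z := rfl
  field_simp
  rw [e4]
  ring

lemma upL_z (hz : 0 < D.F z) (k : Fin n) : ∑ j, Stmt.up D.g k j z * Lg D.g j z =
    1 / dt f F z / 2 * (dd f F k z -
      F z / dt f F z * (∑ l, dd f F l z * pd l f z) * pd k f z) := by
  simp only [(hP z hz).up_z, Lg_z hP hz]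
  rw [ctr1 (fun i => pd i f z) (fun j => 1 / dt f F z / 2 * dd f F j z) (F z / dt f F z) k]
  have : ∑ l, 1 / dt f F z / 2 * dd f F l z * pd l f z =
      1 / dt f F z / 2 * ∑ l, dd f F l z * pd l f z := by
    rw [Finset.mul_sum]; exact Finset.sum_congr rfl fun l _ => by ring
  rw [this]
  ring

omit hP in
lemma sum_a_hs (P : Pg f F D z) (j : Fin n) : ∑ i, pd i f z * hs f i j z = sv f j z := by
  unfold sv
  exact Finset.sum_congr rfl fun i _ => by rw [hs_sym P i j, mul_comm]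

lemma dupsum_z (hz : 0 < D.F z) (k : Fin n) : ∑ j, Stmt.pd j (Stmt.up D.g k j) z =
    -((1 / dt f F z) ^ 2 * (∑ l, pd l F z * pd l f z - 2 * F z ^ 2 * ∑ l, sv f l z * pd l f z) *
      pd k f z + F z / dt f F z * (lap f z * pd k f z + sv f k z)) := by
  have P := hP z hz
  simp only [dup_z hP hz]
  have : ∀ j, -((1 / dt f F z) ^ 2 * (pd j F z - 2 * F z ^ 2 * sv f j z) * pd k f z * pd j f z +
      F z / dt f F z * (hs f j k z * pd j f z + pd k f z * hs f j j z)) =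
      -((1 / dt f F z) ^ 2 * pd k f z * (pd j F z * pd j f z) -
        (1 / dt f F z) ^ 2 * pd k f z * (2 * F z ^ 2) * (sv f j z * pd j f z) +
      F z / dt f F z * (pd j f z * hs f j k z) +
      F z / dt f F z * pd k f z * hs f j j z) := fun j => by ring
  simp only [this, Finset.sum_neg_distrib, Finset.sum_add_distrib, Finset.sum_sub_distrib,
    ← Finset.mul_sum, sum_a_hs P k]
  unfold H353.N.lap
  ring

lemma Ef_z (hz : 0 < D.F z) (k : Fin n) : 2 * Ef D k z =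
    (∑ l, pd l F z * pd l f z) * pd k f z + F z * (lap f z * pd k f z + sv f k z) -
      dd f F k z := by
  have P := hP z hz
  unfold H474.L.Ef
  rw [Finset.sum_sub_distrib]
  have e1 : ∑ j, Stmt.pd j (fun z => D.g z k j) z = (∑ l, pd l F z * pd l f z) * pd k f z +
      F z * (lap f z * pd k f z + sv f k z) := by
    have e : ∀ j, Stmt.pd j (fun z => D.g z k j) z = pd j F z * pd j f z * pd k f z +
      F z * (pd j f z * hs f j k z) + F z * pd k f z * hs f j j z := fun j => by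
        rw [P.dg j k j]; ring
    simp only [e, Finset.sum_add_distrib, ← Finset.sum_mul, ← Finset.mul_sum, sum_a_hs P k]
    unfold H353.N.lap
    ring
  have e2 : ∑ j, Stmt.pd k (fun z => D.g z j j) z = dd f F k z := by
    have e : ∀ j, Stmt.pd k (fun z => D.g z j j) z = pd k F z * (pd j f z * pd j f z) +
      2 * F z * (hs f k j z * pd j f z) := fun j => by
        rw [P.dg k j j]; ring
    simp only [e, Finset.sum_add_distrib, ← Finset.mul_sum]
    rfl
  rw [e1, e2]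
  ring

omit hP in
lemma dd_a (z : E n) : ∑ l, dd f F l z * pd l f z =
    gsq f z * (∑ l, pd l F z * pd l f z) + 2 * F z * ∑ l, sv f l z * pd l f z := by
  have e : ∀ l, dd f F l z * pd l f z = gsq f z * (pd l F z * pd l f z) +
      2 * F z * (sv f l z * pd l f z) := fun l => by unfold dd; ring
  simp only [e, Finset.sum_add_distrib, ← Finset.mul_sum]

lemma Vg_z (hz : 0 < D.F z) (k : Fin n) : Vg D.g k z =
    2 * X0 f F D k z + ∑ j, Stmt.up D.g k j z * Lg D.g j z := by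
  have h1 := (hP z hz).pos.ne'
  have h2 : 2 * X0 f F D k z = 1 / dt f F z * (2 * Ef D k z) := by unfold X0; field_simp
  have e4 : gsq f z * F z = dt f F z - 1 := by unfold dt; ring
  unfold T2.Vg
  rw [dupsum_z hP hz, upL_z hP hz, h2, Ef_z hP hz, dd_a]
  generalize ∑ l, pd l F z * pd l f z = p
  generalize ∑ l, sv f l z * pd l f z = q
  field_simp
  linear_combination (2 * pd k f z * p) * e4

lemma Lg_cd (hy : 0 < D.F y) (i : Fin n) : ContDiffAt ℝ ∞ (Lg D.g i) y := by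
  have P := hP y hy
  have h1 : ContDiffAt ℝ ∞ (fun z => 1 / dt f F z / 2 * dd f F i z) y :=
    ((contDiffAt_const.div (dt_cd P.cf P.cF) P.pos.ne').div_const 2).mul (dd_cd P.cf P.cF i)
  exact h1.congr_of_eventuallyEq ((ev_pos hy).mono fun z hz => Lg_z hP hz i)

/-- `b = (|∂f|² ∂F - ⟨∂f, ∂F⟩ ∂f) / 2` -/
def bv (f F : E n → ℝ) (i : Fin n) (z : E n) : ℝ :=
  (gsq f z * pd i F z - (∑ l, pd l F z * pd l f z) * pd i f z) / 2

/-- **[G1]**: the divergence of the metric part of the flux field. -/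
theorem div_X0 (hy : 0 < D.F y) : ∑ k, Stmt.pd k (X0 f F D k) y =
    Stmt.scal D.g y / 2 +
      (∑ i, bv f F i y * (bv f F i y + F y * sv f i y)) / dt f F y ^ 2 := by
  have P := hP y hy
  have h1 := P.pos.ne'
  have hU : IsOpen {z : E n | 0 < D.F z} := isOpen_lt continuous_const D.dom.1.continuous
  have h := scal_div (g := D.g) hU (fun i j => (D.smooth i j).1) (fun z _ i j => (D.symm z i j).1)
    (fun z hz => (D.pos z (le_of_lt hz)).det_pos.ne') hy
  have hus : ∀ i j, Stmt.up D.g i j y = Stmt.up D.g j i y := fun i j => by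
    rw [P.up_z, P.up_z]
    unfold kd
    simp only [eq_comm (a := i) (b := j)]
    ring
  -- the derivative of `V`
  have hVd : ∀ k, Stmt.pd k (Vg D.g k) y = 2 * Stmt.pd k (X0 f F D k) y +
      ∑ j, (Stmt.pd k (Stmt.up D.g k j) y * Lg D.g j y +
        Stmt.up D.g k j y * Stmt.pd k (Lg D.g j) y) := by
    intro k
    have dX := cdd (X0_cd (D := D) P.cf P.cF h1 k)
    have dU : ∀ j, DifferentiableAt ℝ (Stmt.up D.g k j) y := fun j =>
      cdd (KSS.upD_cd hy.le k j)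
    have dL : ∀ j, DifferentiableAt ℝ (Lg D.g j) y := fun j => cdd (Lg_cd hP hy j)
    have e1 : DP k (fun z => 2 * X0 f F D k z + ∑ j, Stmt.up D.g k j z * Lg D.g j z)
        (2 * pd k (X0 f F D k) y + ∑ j, (pd k (Stmt.up D.g k j) y * Lg D.g j y +
          Stmt.up D.g k j y * pd k (Lg D.g j) y)) y :=
      ((DP.of dX).cmul 2).add (DP.sum _ fun j => (DP.of (dU j)).mul (DP.of (dL j)))
    have e2 : Vg D.g k =ᶠ[𝓝 y] fun z => 2 * X0 f F D k z +
        ∑ j, Stmt.up D.g k j z * Lg D.g j z := (ev_pos hy).mono fun z hz => Vg_z hP hz k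
    have e3 : DP k (Vg D.g k) _ y :=
      ⟨e1.1.congr_of_eventuallyEq e2, by rw [Vale.Agent.P366.pd_congr e2 k, e1.2]⟩
    rw [dp_spd e3, Vale.Agent.P366.Bridge.pd_eq dX]
    congr 1
    exact Finset.sum_congr rfl fun j _ => by
      rw [Vale.Agent.P366.Bridge.pd_eq (dU j), Vale.Agent.P366.Bridge.pd_eq (dL j)]
  have e1 : ∑ k, Stmt.pd k (Vg D.g k) y = 2 * ∑ k, Stmt.pd k (X0 f F D k) y +
      (∑ k, ∑ j, Stmt.pd k (Stmt.up D.g k j) y * Lg D.g j y) +
      ∑ i, ∑ j, Stmt.up D.g i j y * Stmt.pd j (Lg D.g i) y := by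
    simp only [hVd, Finset.sum_add_distrib, ← Finset.mul_sum]
    have : ∑ k, ∑ j, Stmt.up D.g k j y * Stmt.pd k (Lg D.g j) y =
        ∑ i, ∑ j, Stmt.up D.g i j y * Stmt.pd j (Lg D.g i) y := by
      rw [Finset.sum_comm]
      exact Finset.sum_congr rfl fun i _ => Finset.sum_congr rfl fun j _ => by rw [hus j i]
    rw [this]
    ring
  set a : Fin n → ℝ := fun i => pd i f y with ha
  set w : Fin n → ℝ := fun i => pd i F y with hw
  set S : Fin n → ℝ := fun i => sv f i y with hS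
  set b : Fin n → Fin n → ℝ := fun i j => hs f i j y with hb
  obtain ⟨G, hG⟩ : ∃ G, G = gsq f y := ⟨_, rfl⟩
  obtain ⟨p, hp⟩ : ∃ p, p = ∑ l, pd l F y * pd l f y := ⟨_, rfl⟩
  obtain ⟨q, hq⟩ : ∃ q, q = ∑ l, sv f l y * pd l f y := ⟨_, rfl⟩
  obtain ⟨N, hN⟩ : ∃ N, N = ∑ l, pd l F y * pd l F y := ⟨_, rfl⟩
  obtain ⟨FS, hFS⟩ : ∃ FS, FS = ∑ l, sv f l y * pd l F y := ⟨_, rfl⟩
  obtain ⟨ss, hss⟩ : ∃ ss, ss = ∑ l, sv f l y * sv f l y := ⟨_, rfl⟩
  obtain ⟨L, hL⟩ : ∃ L, L = lap f y := ⟨_, rfl⟩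
  obtain ⟨ρ, hρ⟩ : ∃ ρ, ρ = 1 / dt f F y := ⟨_, rfl⟩
  obtain ⟨σ, hσ⟩ : ∃ σ, σ = F y / dt f F y := ⟨_, rfl⟩
  obtain ⟨α1, hα1⟩ : ∃ α1, α1 = ∑ l, dd f F l y * pd l f y := ⟨_, rfl⟩
  obtain ⟨α2, hα2⟩ : ∃ α2, α2 = ∑ l, dd f F l y * sv f l y := ⟨_, rfl⟩
  obtain ⟨α3, hα3⟩ : ∃ α3, α3 = ∑ l, dd f F l y * dd f F l y := ⟨_, rfl⟩
  have v1 : α1 = G * p + 2 * F y * q := by rw [hα1, dd_a, hG, hp, hq]
  have v2 : α2 = G * FS + 2 * F y * ss := by
    have e : ∀ l, dd f F l y * sv f l y = gsq f y * (sv f l y * pd l F y) +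
        2 * F y * (sv f l y * sv f l y) := fun l => by unfold dd; ring
    rw [hα2]
    simp only [e, Finset.sum_add_distrib, ← Finset.mul_sum]
    rw [← hFS, ← hss, hG]
  have v3 : α3 = G ^ 2 * N + 4 * F y * G * FS + 4 * F y ^ 2 * ss := by
    have e : ∀ l, dd f F l y * dd f F l y = gsq f y ^ 2 * (pd l F y * pd l F y) +
        4 * F y * gsq f y * (sv f l y * pd l F y) + 4 * F y ^ 2 * (sv f l y * sv f l y) :=
      fun l => by unfold dd; ring
    rw [hα3]
    simp only [e, Finset.sum_add_distrib, ← Finset.mul_sum]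
    rw [← hFS, ← hss, ← hN, hG]
  have hSb : ∀ i, ∑ j, b i j * a j = S i := fun i => rfl
  have hbs : ∀ i j, b i j = b j i := fun i j => hs_sym P i j
  have haG : ∑ i, a i * a i = G := hG.symm
  have hwp : ∑ i, w i * a i = p := hp.symm
  have hSq : ∑ i, S i * a i = q := hq.symm
  obtain ⟨s, hs'⟩ : ∃ s : Fin n → ℝ, s = fun k => ρ ^ 2 * (w k - 2 * F y ^ 2 * S k) := ⟨_, rfl⟩
  have s1 : ∑ k, s k * a k = ρ ^ 2 * (p - 2 * F y ^ 2 * q) := by
    have e : ∀ k, s k * a k = ρ ^ 2 * (w k * a k) - ρ ^ 2 * (2 * F y ^ 2) * (S k * a k) :=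
      fun k => by rw [hs']; ring
    simp only [e, Finset.sum_sub_distrib, ← Finset.mul_sum, hwp, hSq]
    ring
  have s2 : ∑ k, s k * S k = ρ ^ 2 * (FS - 2 * F y ^ 2 * ss) := by
    have e : ∀ k, s k * S k = ρ ^ 2 * (S k * w k) - ρ ^ 2 * (2 * F y ^ 2) * (S k * S k) :=
      fun k => by rw [hs']; ring
    simp only [e, Finset.sum_sub_distrib, ← Finset.mul_sum]
    rw [hFS, hss]
    ring
  have s3 : ∑ k, s k * w k = ρ ^ 2 * (N - 2 * F y ^ 2 * FS) := by
    have e : ∀ k, s k * w k = ρ ^ 2 * (w k * w k) - ρ ^ 2 * (2 * F y ^ 2) * (S k * w k) :=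
      fun k => by rw [hs']; ring
    simp only [e, Finset.sum_sub_distrib, ← Finset.mul_sum]
    rw [hFS, hN]
    ring
  have e2 : ∑ k, ∑ j, Stmt.pd k (Stmt.up D.g k j) y * Lg D.g j y =
      -(ρ / 2 * ((ρ ^ 2 * (p - 2 * F y ^ 2 * q) + σ * L) * α1 + σ * α2)) := by
    rw [Finset.sum_comm]
    have g1 : ∀ j, ∑ k, Stmt.pd k (Stmt.up D.g k j) y * Lg D.g j y =
        -(ρ / 2 * ((ρ ^ 2 * (p - 2 * F y ^ 2 * q) + σ * L) * (dd f F j y * pd j f y) +
          σ * (dd f F j y * sv f j y))) := by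
      intro j
      rw [← Finset.sum_mul, Lg_z hP hy]
      have g2 : ∑ k, Stmt.pd k (Stmt.up D.g k j) y = ∑ k, Stmt.pd k (Stmt.up D.g j k) y :=
        Finset.sum_congr rfl fun k _ => by
          rw [dup_z hP hy, dup_z hP hy]; ring
      rw [g2, dupsum_z hP hy, ← hρ, ← hσ, ← hp, ← hq, ← hL]
      ring
    simp only [g1, ← Finset.mul_sum, Finset.sum_add_distrib, Finset.sum_neg_distrib]
    rw [← hα1, ← hα2]
  have e3 : ∑ l, Lg D.g l y * Vg D.g l y =
      ρ / 2 * (ρ * (p * α1 + F y * (L * α1 + α2) - α3) + ρ / 2 * (α3 - σ * α1 ^ 2)) := by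
    have g1 : ∀ l, Lg D.g l y * Vg D.g l y = ρ / 2 * (ρ * (p * (dd f F l y * pd l f y) +
        F y * (L * (dd f F l y * pd l f y) + dd f F l y * sv f l y) - dd f F l y * dd f F l y) +
        ρ / 2 * (dd f F l y * dd f F l y - σ * α1 * (dd f F l y * pd l f y))) := by
      intro l
      have h2 : 2 * X0 f F D l y = ρ * (2 * Ef D l y) := by
        rw [hρ]; unfold X0; field_simp
      rw [Vg_z hP hy, h2, Ef_z hP hy, upL_z hP hy, Lg_z hP hy, ← hρ, ← hσ, ← hp, ← hL, ← hα1]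
      ring
    simp only [g1, ← Finset.mul_sum, Finset.sum_sub_distrib, Finset.sum_add_distrib]
    rw [← hα1, ← hα2, ← hα3]
    ring
  have hq1 := q1_out (s := s) (w := w) (F := F y) (σ := σ) hbs hSb haG hwp hSq
  have hq2 := q2_out (s := s) (w := w) (F := F y) (σ := σ) hbs hSb haG hwp hSq
  have e4 : ∑ k, ∑ l, Stmt.up D.g k l y * ∑ i, ∑ j, Stmt.pd k (Stmt.up D.g i j) y *
      Stmt.pd i (fun y => D.g y j l) y =
      -((p * G + F y * q) * (∑ k, s k * a k) + F y * G * (∑ k, s k * S k) +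
      σ * (G * (∑ i, S i * w i) + 3 * F y * (∑ i, S i * S i) +
        F y * G * (∑ k, ∑ i, b k i * b i k) + p * q)) +
    σ * ((∑ k, s k * a k) * (p * G ^ 2 + 2 * F y * G * q) +
      σ * (G ^ 2 * (∑ i, S i * w i) + 3 * F y * G * (∑ i, S i * S i) + p * q * G +
        F y * q ^ 2)) := by
    rw [← hq1]
    refine Finset.sum_congr rfl fun k _ => Finset.sum_congr rfl fun l _ => ?_
    rw [P.up_z, ← hσ, ← q1_in hbs hSb haG hwp hSq k l]
    congr 1
    refine Finset.sum_congr rfl fun i _ => Finset.sum_congr rfl fun j _ => ?_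
    rw [dup_z hP hy, P.dg, ← hσ, ← hρ, hs']
  have e5 : ∑ k, ∑ l, Stmt.up D.g k l y * ∑ i, ∑ j, Stmt.pd k (Stmt.up D.g i j) y *
      Stmt.pd l (fun y => D.g y i j) y =
      -(G ^ 2 * (∑ k, s k * w k) + 2 * F y * G * (∑ k, s k * S k) +
        σ * (2 * G * (∑ i, S i * w i) +
      2 * F y * (G * (∑ k, ∑ i, b k i * b i k) + ∑ i, S i * S i))) +
    σ * ((∑ k, s k * a k) * (p * G ^ 2 + 2 * F y * G * q) +
      σ * (2 * q * G * p + 2 * F y * (G * (∑ i, S i * S i) + q ^ 2))) := by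
    rw [← hq2]
    refine Finset.sum_congr rfl fun k _ => Finset.sum_congr rfl fun l _ => ?_
    rw [P.up_z, ← hσ, ← q2_in hbs hSb haG k l]
    congr 1
    refine Finset.sum_congr rfl fun i _ => Finset.sum_congr rfl fun j _ => ?_
    rw [dup_z hP hy, P.dg, ← hσ, ← hρ, hs']
  have f1 : ∑ i, S i * w i = FS := hFS.symm
  have f2 : ∑ i, S i * S i = ss := hss.symm
  rw [s1, s2, f1, f2] at e4
  rw [s1, s2, s3, f1, f2] at e5
  have e6 : ∑ i, bv f F i y * (bv f F i y + F y * sv f i y) =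
      (G ^ 2 * N - G * p ^ 2) / 4 + F y * (G * FS - p * q) / 2 := by
    have g1 : ∀ i, bv f F i y * (bv f F i y + F y * sv f i y) =
        1 / 4 * G ^ 2 * (pd i F y * pd i F y) - 1 / 2 * G * p * (pd i F y * pd i f y) +
        1 / 4 * p ^ 2 * (pd i f y * pd i f y) + 1 / 2 * F y * G * (sv f i y * pd i F y) -
        1 / 2 * F y * p * (sv f i y * pd i f y) := by
      intro i
      unfold bv
      rw [← hG, ← hp]
      ring
    simp only [g1, ← Finset.mul_sum, Finset.sum_sub_distrib, Finset.sum_add_distrib]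
    have g2 : ∑ i, pd i f y * pd i f y = G := hG.symm
    rw [g2, ← hN, ← hp, ← hFS, ← hq]
    ring
  rw [h, e1, e2, e3, e4, e5, e6, v1, v2, v3, hρ, hσ]
  have hd : dt f F y = 1 + F y * G := by rw [hG]; rfl
  rw [hd] at h1 ⊢
  generalize ∑ k, ∑ i, b k i * b i k = B2
  field_simp
  ring

end Vale.Agent.P366.CG
end
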