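import Vale.Agent.P366.CF.RAlg

/-! Contractions of the first derivatives of the metric `δ + F df ⊗ df`. -/

open MeasureTheory Metric Filter Topology Set
open scoped ContDiff ENNReal

noncomputable section
namespace Vale.Agent.P366.CG

open Vale.Agent.P366.H353.N (kd)
open Vale.Agent.P366.CF (ctr ctr1)

variable {n : ℕ} {a w s S : Fin n → ℝ} {b : Fin n → Fin n → ℝ} {F G σ p q : ℝ}

/-- the inverse metric -/
lemma up_gen {g : Stmt.Field n} {x : Stmt.E n} {a : Fin n → ℝ} {F : ℝ}
    (hw : 1 + F * ∑ i, a i * a i ≠ 0) (hg : ∀ i j, g x i j = kd i j + F * a i * a j)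
    (i j : Fin n) :
    Stmt.up g i j x = kd i j - F / (1 + F * ∑ i, a i * a i) * a i * a j := by
  obtain ⟨t, ht⟩ : ∃ t, t = ∑ i, a i * a i := ⟨_, rfl⟩
  rw [← ht] at hw ⊢
  have h1 : Stmt.mat g x * (Matrix.of fun i j => kd i j - F / (1 + F * t) * a i * a j) = 1 := by
    ext k l
    rw [Matrix.mul_apply]
    simp only [Stmt.mat, Matrix.of_apply, hg]
    have e1 : ∀ m, (kd k m + F * a k * a m) * (kd m l - F / (1 + F * t) * a m * a l) =
        kd k m * kd m l - F / (1 + F * t) * a l * (kd k m * a m) +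
          F * a k * (a m * kd m l) - F * a k * (F / (1 + F * t)) * a l * (a m * a m) :=
      fun m => by ring
    have z1 : ∑ m, kd k m * kd m l = kd k l := by simp [kd]
    have z2 : ∑ m, kd k m * a m = a k := by simp [kd]
    have z3 : ∑ m, a m * kd m l = a l := by simp [kd]
    simp only [e1, Finset.sum_sub_distrib, Finset.sum_add_distrib, ← Finset.mul_sum, z1, z2, z3,
      ← ht]
    have e2 : (1 : Matrix (Fin n) (Fin n) ℝ) k l = kd k l := by
      unfold kd
      rw [Matrix.one_apply]
    rw [e2]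
    field_simp
    ring
  have h2 : (Stmt.mat g x)⁻¹ = Matrix.of fun i j => kd i j - F / (1 + F * t) * a i * a j :=
    Matrix.inv_eq_right_inv h1
  unfold Stmt.up
  rw [h2]
  rfl

section

variable (hb : ∀ i j, b i j = b j i) (hS : ∀ i, ∑ j, b i j * a j = S i)
  (hG : ∑ i, a i * a i = G) (hp : ∑ i, w i * a i = p) (hq : ∑ i, S i * a i = q)

include hb hS in
lemma Sl (j : Fin n) : ∑ i, a i * b i j = S j := by
  rw [← hS j]; exact Finset.sum_congr rfl fun i _ => by rw [hb i j, mul_comm]

include hb hS in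
lemma bv_a (v : Fin n → ℝ) : ∑ k, (∑ i, b k i * v i) * a k = ∑ i, S i * v i := by
  have h : ∀ i, S i * v i = ∑ k, b k i * v i * a k := fun i => by
    rw [← Sl hb hS i, Finset.sum_mul]; exact Finset.sum_congr rfl fun k _ => by ring
  simp only [h, Finset.sum_mul]
  exact Finset.sum_comm

include hS in
lemma bb_a (k : Fin n) : ∑ l, (∑ i, b k i * b i l) * a l = ∑ i, b k i * S i := by
  have h : ∀ i, b k i * S i = ∑ l, b k i * b i l * a l := fun i => by
    rw [← hS i, Finset.mul_sum]; exact Finset.sum_congr rfl fun k _ => by ring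
  simp only [h, Finset.sum_mul]
  exact Finset.sum_comm

include hb hS hG hp hq

omit hq in
lemma q1_in (hq : ∑ i, S i * a i = q) (k l : Fin n) :
    ∑ i, ∑ j, (-(s k * a i * a j + σ * (b k i * a j + a i * b k j))) *
    (w i * a j * a l + F * b i j * a l + F * a j * b i l) =
    -(s k * ((p * G + F * q) * a l + F * G * S l) +
      σ * (G * (∑ i, b k i * w i) * a l + 2 * F * (∑ i, b k i * S i) * a l +
        F * G * (∑ i, b k i * b i l) + p * S k * a l + F * S k * S l)) := by
  have e1 : ∀ i j, (-(s k * a i * a j + σ * (b k i * a j + a i * b k j))) *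
      (w i * a j * a l + F * b i j * a l + F * a j * b i l) =
      -((s k * a l * (w i * a i) + s k * F * (a i * b i l) + σ * a l * (b k i * w i) +
          σ * F * (b k i * b i l)) * (a j * a j) +
        (s k * F * a l * a i + σ * F * a l * b k i) * (b i j * a j) +
        (σ * a l * (w i * a i) + σ * F * (a i * b i l)) * (b k j * a j) +
        σ * F * a l * (a i * (b i j * b k j))) := fun i j => by ring
  have z : ∑ i, a i * ∑ j, b i j * b k j = ∑ j, b k j * S j := by
    have h : ∀ j, b k j * S j = ∑ i, a i * (b i j * b k j) := fun j => by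
      rw [← Sl hb hS j, Finset.mul_sum]; exact Finset.sum_congr rfl fun i _ => by ring
    simp only [h, Finset.mul_sum]
    exact Finset.sum_comm
  have z2 : ∑ i, (s k * F * a l * a i + σ * F * a l * b k i) * S i =
      s k * F * a l * q + σ * F * a l * ∑ i, b k i * S i := by
    have : ∀ i, (s k * F * a l * a i + σ * F * a l * b k i) * S i =
        s k * F * a l * (S i * a i) + σ * F * a l * (b k i * S i) := fun i => by ring
    simp only [this, Finset.sum_add_distrib, ← Finset.mul_sum, hq]
  simp only [e1, Finset.sum_neg_distrib, Finset.sum_add_distrib, ← Finset.mul_sum, hG, hS, z,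
    ← Finset.sum_mul, z2, hp, Sl hb hS]
  ring

omit hp hq in
lemma q2_in (k l : Fin n) : ∑ i, ∑ j, (-(s k * a i * a j + σ * (b k i * a j + a i * b k j))) *
    (w l * a i * a j + F * b l i * a j + F * a i * b l j) =
    -(s k * (G ^ 2 * w l + 2 * F * G * S l) + σ * (2 * G * S k * w l +
      2 * F * (G * (∑ i, b k i * b i l) + S k * S l))) := by
  have e1 : ∀ i j, (-(s k * a i * a j + σ * (b k i * a j + a i * b k j))) *
      (w l * a i * a j + F * b l i * a j + F * a i * b l j) =
      -((s k * w l * (a i * a i) + s k * F * (b l i * a i) + σ * w l * (b k i * a i) +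
          σ * F * (b k i * b i l)) * (a j * a j) +
        (s k * F * (a i * a i) + σ * F * (b k i * a i)) * (b l j * a j) +
        (σ * w l * (a i * a i) + σ * F * (b l i * a i)) * (b k j * a j) +
        σ * F * (a i * a i) * (b k j * b j l)) := fun i j => by
    rw [hb l i, hb l j, hb i l]
    ring
  simp only [e1, Finset.sum_neg_distrib, Finset.sum_add_distrib, ← Finset.mul_sum, hG, hS,
    ← Finset.sum_mul]
  ring

lemma q1_out : ∑ k, ∑ l, (kd k l - σ * a k * a l) *
    (-(s k * ((p * G + F * q) * a l + F * G * S l) +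
      σ * (G * (∑ i, b k i * w i) * a l + 2 * F * (∑ i, b k i * S i) * a l +
        F * G * (∑ i, b k i * b i l) + p * S k * a l + F * S k * S l))) =
    -((p * G + F * q) * (∑ k, s k * a k) + F * G * (∑ k, s k * S k) +
      σ * (G * (∑ i, S i * w i) + 3 * F * (∑ i, S i * S i) +
        F * G * (∑ k, ∑ i, b k i * b i k) + p * q)) +
    σ * ((∑ k, s k * a k) * (p * G ^ 2 + 2 * F * G * q) +
      σ * (G ^ 2 * (∑ i, S i * w i) + 3 * F * G * (∑ i, S i * S i) + p * q * G +
        F * q ^ 2)) := by
  rw [ctr a σ fun k l => -(s k * ((p * G + F * q) * a l + F * G * S l) +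
      σ * (G * (∑ i, b k i * w i) * a l + 2 * F * (∑ i, b k i * S i) * a l +
        F * G * (∑ i, b k i * b i l) + p * S k * a l + F * S k * S l))]
  have e1 : ∀ k, ∑ l, a l * (-(s k * ((p * G + F * q) * a l + F * G * S l) +
      σ * (G * (∑ i, b k i * w i) * a l + 2 * F * (∑ i, b k i * S i) * a l +
        F * G * (∑ i, b k i * b i l) + p * S k * a l + F * S k * S l))) =
      -(s k * (p * G ^ 2 + 2 * F * G * q) + σ * (G ^ 2 * (∑ i, b k i * w i) +
        3 * F * G * (∑ i, b k i * S i) + p * G * S k + F * q * S k)) := by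
    intro k
    have e2 : ∀ l, a l * (-(s k * ((p * G + F * q) * a l + F * G * S l) +
      σ * (G * (∑ i, b k i * w i) * a l + 2 * F * (∑ i, b k i * S i) * a l +
        F * G * (∑ i, b k i * b i l) + p * S k * a l + F * S k * S l))) =
      -((s k * (p * G + F * q) + σ * (G * (∑ i, b k i * w i) + 2 * F * (∑ i, b k i * S i) +
        p * S k)) * (a l * a l) + (s k * F * G + σ * F * S k) * (S l * a l) +
        σ * F * G * ((∑ i, b k i * b i l) * a l)) := fun l => by ring
    simp only [e2, Finset.sum_neg_distrib, Finset.sum_add_distrib, ← Finset.mul_sum, hG, hq,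
      bb_a hS]
    ring
  simp only [e1]
  have e3 : ∀ k, a k * -(s k * (p * G ^ 2 + 2 * F * G * q) + σ * (G ^ 2 * (∑ i, b k i * w i) +
        3 * F * G * (∑ i, b k i * S i) + p * G * S k + F * q * S k)) =
      -((p * G ^ 2 + 2 * F * G * q) * (s k * a k) + σ * G ^ 2 * ((∑ i, b k i * w i) * a k) +
        3 * σ * F * G * ((∑ i, b k i * S i) * a k) + σ * (p * G + F * q) * (S k * a k)) :=
    fun k => by ring
  have e4 : ∀ k, -(s k * ((p * G + F * q) * a k + F * G * S k) +
      σ * (G * (∑ i, b k i * w i) * a k + 2 * F * (∑ i, b k i * S i) * a k +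
        F * G * (∑ i, b k i * b i k) + p * S k * a k + F * S k * S k)) =
      -((p * G + F * q) * (s k * a k) + F * G * (s k * S k) +
        σ * G * ((∑ i, b k i * w i) * a k) + 2 * σ * F * ((∑ i, b k i * S i) * a k) +
        σ * F * G * (∑ i, b k i * b i k) + σ * p * (S k * a k) + σ * F * (S k * S k)) :=
    fun k => by ring
  simp only [e3, e4, Finset.sum_neg_distrib, Finset.sum_add_distrib, ← Finset.mul_sum, hq,
    bv_a hb hS w, bv_a hb hS S]
  ring

lemma q2_out : ∑ k, ∑ l, (kd k l - σ * a k * a l) *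
    (-(s k * (G ^ 2 * w l + 2 * F * G * S l) + σ * (2 * G * S k * w l +
      2 * F * (G * (∑ i, b k i * b i l) + S k * S l)))) =
    -(G ^ 2 * (∑ k, s k * w k) + 2 * F * G * (∑ k, s k * S k) + σ * (2 * G * (∑ i, S i * w i) +
      2 * F * (G * (∑ k, ∑ i, b k i * b i k) + ∑ i, S i * S i))) +
    σ * ((∑ k, s k * a k) * (p * G ^ 2 + 2 * F * G * q) +
      σ * (2 * q * G * p + 2 * F * (G * (∑ i, S i * S i) + q ^ 2))) := by
  rw [ctr a σ fun k l => -(s k * (G ^ 2 * w l + 2 * F * G * S l) + σ * (2 * G * S k * w l +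
      2 * F * (G * (∑ i, b k i * b i l) + S k * S l)))]
  have e1 : ∀ k, ∑ l, a l * (-(s k * (G ^ 2 * w l + 2 * F * G * S l) + σ * (2 * G * S k * w l +
      2 * F * (G * (∑ i, b k i * b i l) + S k * S l)))) =
      -(s k * (p * G ^ 2 + 2 * F * G * q) + σ * (2 * G * p * S k + 2 * F * q * S k +
        2 * F * G * (∑ i, b k i * S i))) := by
    intro k
    have e2 : ∀ l, a l * (-(s k * (G ^ 2 * w l + 2 * F * G * S l) + σ * (2 * G * S k * w l +
      2 * F * (G * (∑ i, b k i * b i l) + S k * S l)))) =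
      -((s k * G ^ 2 + 2 * σ * G * S k) * (w l * a l) +
        (2 * s k * F * G + 2 * σ * F * S k) * (S l * a l) +
        2 * σ * F * G * ((∑ i, b k i * b i l) * a l)) := fun l => by ring
    simp only [e2, Finset.sum_neg_distrib, Finset.sum_add_distrib, ← Finset.mul_sum, hp, hq,
      bb_a hS]
    ring
  simp only [e1]
  have e3 : ∀ k, a k * -(s k * (p * G ^ 2 + 2 * F * G * q) + σ * (2 * G * p * S k +
        2 * F * q * S k + 2 * F * G * (∑ i, b k i * S i))) =
      -((p * G ^ 2 + 2 * F * G * q) * (s k * a k) + σ * (2 * G * p + 2 * F * q) * (S k * a k) +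
        2 * σ * F * G * ((∑ i, b k i * S i) * a k)) := fun k => by ring
  have e4 : ∀ k, -(s k * (G ^ 2 * w k + 2 * F * G * S k) + σ * (2 * G * S k * w k +
      2 * F * (G * (∑ i, b k i * b i k) + S k * S k))) =
      -(G ^ 2 * (s k * w k) + 2 * F * G * (s k * S k) + 2 * σ * G * (S k * w k) +
        2 * σ * F * G * (∑ i, b k i * b i k) + 2 * σ * F * (S k * S k)) := fun k => by ring
  simp only [e3, e4, Finset.sum_neg_distrib, Finset.sum_add_distrib, ← Finset.mul_sum, hq,
    bv_a hb hS S]
  ring

end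

end Vale.Agent.P366.CG
end
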